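import Vale.Agent.P155.BD.Iface
import Vale.Agent.P155.BD276.Harn

/-!
# P155, block BD (B6): invariance of the hyperbolic distance

* `hh_pick`: Schwarz–Pick for `HH`;
* `hh_inv`: `HH (φ z) (φ z')` does not depend on the Riemann map;
* `dd_eq`: `dd T x y = log (4 HH (φ (cf x)) (φ (cf y)))` for every Riemann map `φ`.
-/

namespace Vale.Agent.P155.BDK

open Complex Metric Set
open Vale.Agent.P155 Vale.Agent.P155.BD
open scoped ComplexConjugate

/-- `1 / HH = 1 - δ²`. -/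
theorem inv_HH {w w' : ℂ} (h : ‖w‖ < 1) (h' : ‖w'‖ < 1) :
    (HH w w')⁻¹ = 1 - ‖(w' - w) / (1 - conj w * w')‖ ^ 2 := by
  have h1 := one_sub_pos h
  have h2 := one_sub_pos h'
  have h3 : 0 < ‖1 - conj w * w'‖ := norm_pos_iff.2 (BD276.den_ne h h')
  have h4 := id1 w w'
  have h5 : ‖1 - conj w * w'‖ ^ 2 ≠ 0 := by positivity
  unfold HH
  rw [inv_div, norm_div, div_pow, eq_sub_iff_add_eq, ← add_div, div_eq_one_iff_eq h5,
    norm_sub_rev w' w]
  linarith

theorem HH_pos {w w' : ℂ} (h : ‖w‖ < 1) (h' : ‖w'‖ < 1) : 0 < HH w w' :=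
  one_pos.trans_le (one_le_HH h h')

/-- **Schwarz–Pick**. -/
theorem hh_pick {g : ℂ → ℂ} (hg : DifferentiableOn ℂ g (ball 0 1))
    (hm : ∀ w ∈ ball (0 : ℂ) 1, g w ∈ ball (0 : ℂ) 1) {w w' : ℂ} (hw : w ∈ ball (0 : ℂ) 1)
    (hw' : w' ∈ ball (0 : ℂ) 1) : HH (g w) (g w') ≤ HH w w' := by
  have hn : ∀ {u : ℂ}, u ∈ ball (0 : ℂ) 1 → ‖u‖ < 1 := fun h => mem_ball_zero_iff.1 h
  have hw1 := hn hw
  have hw1' := hn hw'
  have hg1 := hn (hm w hw)
  have hg1' := hn (hm w' hw')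
  set a := w with ha
  set b := g w with hb
  set M : ℂ → ℂ := fun ζ => (ζ - (-a)) / (1 - conj (-a) * ζ) with hM
  have han : ‖-a‖ < 1 := by rwa [norm_neg]
  have hMd : DifferentiableOn ℂ M (ball 0 1) := by
    refine DifferentiableOn.div (differentiableOn_id.sub_const _) ?_ ?_
    · exact (differentiableOn_const 1).sub (differentiableOn_id.const_mul (conj (-a)))
    · intro z hz
      exact BD276.den_ne han (hn hz)
  have hMm : MapsTo M (ball 0 1) (ball 0 1) := fun z hz => by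
    rw [mem_ball_zero_iff]
    exact BD276.mob_lt han (hn hz)
  set h : ℂ → ℂ := fun ζ => (g (M ζ) - b) / (1 - conj b * g (M ζ)) with hh
  have hgM : DifferentiableOn ℂ (fun ζ => g (M ζ)) (ball 0 1) := hg.comp hMd hMm
  have hhd : DifferentiableOn ℂ h (ball 0 1) := by
    refine DifferentiableOn.div (hgM.sub_const b) ?_ ?_
    · exact (differentiableOn_const 1).sub (hgM.const_mul (conj b))
    · intro z hz
      exact BD276.den_ne hg1 (hn (hm _ (hMm hz)))
  have hhm : MapsTo h (ball 0 1) (closedBall 0 1) := fun z hz => by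
    rw [mem_closedBall_zero_iff]
    exact (BD276.mob_lt hg1 (hn (hm _ (hMm hz)))).le
  have hM0 : M 0 = a := by simp [hM]
  have hh0 : h 0 = 0 := by
    have : h 0 = (g (M 0) - b) / (1 - conj b * g (M 0)) := rfl
    rw [this, hM0, ← hb, sub_self, zero_div]
  set ζ0 : ℂ := (w' - a) / (1 - conj a * w') with hζ0
  have hζ1 : ‖ζ0‖ < 1 := BD276.mob_lt hw1 hw1'
  have hS := Complex.norm_le_norm_of_mapsTo_ball hhd hhm hh0 hζ1
  have hMζ : M ζ0 = w' := by
    have hd := BD276.den_ne hw1 hw1'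
    have hd2 := BD276.den_ne han hζ1
    show (ζ0 - -a) / (1 - conj (-a) * ζ0) = w'
    have h9 : ζ0 * (1 - conj a * w') = w' - a := div_mul_cancel₀ _ hd
    rw [div_eq_iff hd2, map_neg]
    linear_combination h9
  have e1 : h ζ0 = (g w' - b) / (1 - conj b * g w') := by rw [hh]; simp only [hMζ]
  rw [e1] at hS
  have h1 := inv_HH hg1 hg1'
  have h2 := inv_HH hw1 hw1'
  have h3 : (HH w w')⁻¹ ≤ (HH (g w) (g w'))⁻¹ := by
    rw [h1, h2]
    have := pow_le_pow_left₀ (norm_nonneg _) hS 2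
    linarith
  exact (inv_le_inv₀ (HH_pos hw1 hw1') (HH_pos hg1 hg1')).1 h3

/-- the distance does not depend on the Riemann map: one inequality -/
theorem hh_le {T : Temp} {f φ f' φ' : ℂ → ℂ} (h : RM T f φ) (h' : RM T f' φ') {z z' : ℂ}
    (hz : z ∈ UU T) (hz' : z' ∈ UU T) : HH (φ z) (φ z') ≤ HH (φ' z) (φ' z') := by
  have hd : DifferentiableOn ℂ (fun w => φ (f' w)) (ball 0 1) := h.hφ.comp h'.hf h'.maps
  have := hh_pick hd (fun w hw => h.maps' _ (h'.maps w hw)) (h'.maps' z hz) (h'.maps' z' hz')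
  simpa only [h'.right z hz, h'.right z' hz'] using this

/-- **the distance does not depend on the Riemann map** -/
theorem hh_inv {T : Temp} {f φ f' φ' : ℂ → ℂ} (h : RM T f φ) (h' : RM T f' φ') {z z' : ℂ}
    (hz : z ∈ UU T) (hz' : z' ∈ UU T) : HH (φ z) (φ z') = HH (φ' z) (φ' z') :=
  le_antisymm (hh_le h h' hz hz') (hh_le h' h hz hz')

/-- the chosen Riemann map is one -/
theorem rmap_spec {T : Temp} {f φ : ℂ → ℂ} (h : RM T f φ) : ∃ f', RM T f' (rmap T) := by
  classical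
  have hex : ∃ φ : ℂ → ℂ, ∃ f, RM T f φ := ⟨φ, f, h⟩
  unfold rmap
  rw [dif_pos hex]
  exact hex.choose_spec

end Vale.Agent.P155.BDK
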