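import Vale.Agent.P155.BDK.Ko
import Vale.Agent.P155.BDK.HInv

/-!
# P155, block BD (B6): a hyperbolic ball is covered by boundedly many boxes
-/

namespace Vale.Agent.P155.BDK

open Complex Metric Set
open Vale.Agent.P155 Vale.Agent.P155.BD
open scoped ComplexConjugate

theorem ball_cf {O : Set Pt} {x : Pt} :
    ball (cf x) ((dF O x : ℝ) - 1 / 2) ⊆ interior (region 1 0 O) := by
  apply interior_maximal _ isOpen_ball
  intro z hz
  rw [mem_ball, dist_eq_norm] at hz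
  have h1 := (abs_re_le_norm (z - cf x)).trans_lt hz
  have h2 := (abs_im_le_norm (z - cf x)).trans_lt hz
  rw [sub_re, cf_re, abs_lt] at h1
  rw [sub_im, cf_im, abs_lt] at h2
  have h0 : 0 < dF O x := by
    have h3 := norm_nonneg (z - cf x)
    have h4 : (0 : ℝ) < dF O x := by linarith
    exact_mod_cast h4
  have a1 := Int.floor_le z.re
  have a2 := Int.lt_floor_add_one z.re
  have a3 := Int.floor_le z.im
  have a4 := Int.lt_floor_add_one z.im
  have b1 : ((⌊z.re⌋ : ℤ) : ℝ) < x.1 + dF O x := by linarith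
  have b2 : (x.1 : ℝ) < ⌊z.re⌋ + dF O x := by linarith
  have b3 : ((⌊z.im⌋ : ℤ) : ℝ) < x.2 + dF O x := by linarith
  have b4 : (x.2 : ℝ) < ⌊z.im⌋ + dF O x := by linarith
  have c1 : ⌊z.re⌋ < x.1 + dF O x := by exact_mod_cast b1
  have c2 : x.1 < ⌊z.re⌋ + dF O x := by exact_mod_cast b2
  have c3 : ⌊z.im⌋ < x.2 + dF O x := by exact_mod_cast b3
  have c4 : x.2 < ⌊z.im⌋ + dF O x := by exact_mod_cast b4
  have hdn : dn x (⌊z.re⌋, ⌊z.im⌋) ≤ dF O x - 1 := by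
    rw [H904.dn_le_iff, abs_le, abs_le]
    simp only
    refine ⟨⟨?_, ?_⟩, ?_, ?_⟩ <;> omega
  have hy : ((⌊z.re⌋, ⌊z.im⌋) : Pt) ∈ O := mem_of_lt_dF (z := x) (by omega)
  unfold region
  exact mem_iUnion₂.2 ⟨_, hy, mem_sqr_iff.2 ⟨⟨a1, a2.le⟩, a3, a4.le⟩⟩

theorem dF_pos' {T : Temp} {x : Pt} (hx : x ∈ T.faceSet) : 0 < dF T.faceSet x :=
  H904.dF_pos (exists_notMem T) hx

theorem cf_mem {T : Temp} {x : Pt} (hx : x ∈ T.faceSet) : cf x ∈ UU T := by
  apply ball_cf (x := x)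
  have h : (1 : ℝ) ≤ dF T.faceSet x := by exact_mod_cast dF_pos' hx
  rw [mem_ball, dist_self]
  linarith

theorem le_dU {T : Temp} {x : Pt} : (dF T.faceSet x : ℝ) - 1 / 2 ≤ dU T (cf x) := by
  unfold dU
  refine (le_infDist (UU_compl_ne T)).2 fun y hy => ?_
  by_contra hc
  push Not at hc
  exact hy (ball_cf (O := T.faceSet) (x := x) (by rw [mem_ball, dist_comm]; exact hc))

theorem norm_cf_sub (x y : Pt) : ‖cf x - cf y‖ ≤ 2 * dn x y := by
  have h := (H904.dn_le_iff (u := x) (v := y) (n := dn x y)).1 le_rfl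
  have h1 : |((x.1 - y.1 : ℤ) : ℝ)| ≤ dn x y := by
    rw [← Int.cast_abs]
    exact_mod_cast h.1
  have h2 : |((x.2 - y.2 : ℤ) : ℝ)| ≤ dn x y := by
    rw [← Int.cast_abs]
    exact_mod_cast h.2
  refine (norm_le_abs_re_add_abs_im _).trans ?_
  rw [sub_re, sub_im, cf_re, cf_re, cf_im, cf_im]
  push_cast at h1 h2
  have e1 : ((x.1 : ℝ) + 1 / 2 - (y.1 + 1 / 2)) = x.1 - y.1 := by ring
  have e2 : ((x.2 : ℝ) + 1 / 2 - (y.2 + 1 / 2)) = x.2 - y.2 := by ring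
  rw [e1, e2]
  linarith

theorem dU_le {T : Temp} {x : Pt} : dU T (cf x) ≤ 2 * dF T.faceSet x := by
  obtain ⟨y, hy, h⟩ := H904.exists_dF (exists_notMem T) x
  have h1 : cf y ∈ (UU T)ᶜ := fun h => hy (mem_of_cf (interior_subset h))
  refine (infDist_le_dist_of_mem h1).trans ?_
  rw [dist_eq_norm, ← h]
  exact norm_cf_sub x y

theorem dU_le_sz {T : Temp} {x : Pt} : dU T (cf x) ≤ 32 * ((sz T x : ℝ) + 1) := by
  refine dU_le.trans ?_
  have h : dF T.faceSet x ≤ 16 * (sz T x + 1) := by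
    unfold sz
    omega
  have h' : (dF T.faceSet x : ℝ) ≤ 16 * ((sz T x : ℝ) + 1) := by exact_mod_cast h
  linarith

theorem sz_le_dU {T : Temp} {x : Pt} (hx : x ∈ T.faceSet) : (sz T x : ℝ) ≤ dU T (cf x) := by
  have h0 := dF_pos' hx
  have h : 2 * sz T x + 1 ≤ 2 * dF T.faceSet x := by
    unfold sz
    omega
  have h' : 2 * (sz T x : ℝ) + 1 ≤ 2 * dF T.faceSet x := by exact_mod_cast h
  have := le_dU (T := T) (x := x)
  linarith

theorem dU_lip (T : Temp) (z z' : ℂ) : dU T z ≤ dU T z' + ‖z - z'‖ := by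
  unfold dU
  have := infDist_le_infDist_add_dist (s := (UU T)ᶜ) (x := z) (y := z')
  rwa [dist_eq_norm] at this

theorem dU_pos {T : Temp} {z : ℂ} (hz : z ∈ UU T) : 0 < dU T z := by
  unfold dU
  refine (infDist_pos_iff_notMem_closure (UU_compl_ne T)).1 ?_
  rw [(UU_open T).isClosed_compl.closure_eq]
  exact fun h => h hz

/-- **Covering lemma.** -/
theorem cover (A : ℝ) : ∃ (N0 : ℕ) (C : ℝ), 1 ≤ C ∧ ∀ (T : Temp) (f φ : ℂ → ℂ), RM T f φ →
    ∀ w ∈ ball (0 : ℂ) 1, ∃ Z : Finset Pt, Z.card ≤ N0 ∧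
      (∀ z ∈ Z, z ∈ T.faceSet ∧ HH (φ (cf z)) w ≤ A ∧ dU T (f w) ≤ C * ((sz T z : ℝ) + 1)) ∧
      ∀ x ∈ T.faceSet, HH (φ (cf x)) w ≤ A → ∃ z ∈ Z, x ∈ box z (sz T z) := by
  classical
  obtain ⟨C0, hC0⟩ := ko A
  set C1 : ℝ := max C0 0 with hC1
  have hC1' : 0 ≤ C1 := le_max_right _ _
  set L : ℝ := 128 * C1 * (1 + C1) with hL
  have hL0 : 0 ≤ L := by positivity
  refine ⟨(⌈L⌉₊ + 2) ^ 2, 32 * (1 + C1), by linarith, ?_⟩
  intro T f φ h w hw
  set X : Finset Pt := (A1.faceSet_finite T).toFinset.filter (fun x => HH (φ (cf x)) w ≤ A) with hX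
  have hmem : ∀ x, x ∈ X ↔ x ∈ T.faceSet ∧ HH (φ (cf x)) w ≤ A := by
    intro x
    rw [hX, Finset.mem_filter, Set.Finite.mem_toFinset]
  set d := dU T (f w) with hd
  have hd0 : 0 < d := dU_pos (h.maps w hw)
  have key : ∀ x ∈ X, ‖cf x - f w‖ ≤ C1 * d ∧ d ≤ (1 + C1) * dU T (cf x) := by
    intro x hx
    obtain ⟨hx1, hx2⟩ := (hmem x).1 hx
    have hcx := cf_mem hx1
    have h1 := hC0 T f φ h _ (h.maps' _ hcx) w hw hx2
    have h2 := hC0 T f φ h w hw _ (h.maps' _ hcx) (by rw [HH_comm]; exact hx2)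
    rw [h.right _ hcx] at h1 h2
    have h3 := dU_pos hcx
    constructor
    · rw [norm_sub_rev]
      exact h2.trans (mul_le_mul_of_nonneg_right (le_max_left _ _) hd0.le)
    · have h4 := dU_lip T (f w) (cf x)
      have h5 : ‖f w - cf x‖ ≤ C1 * dU T (cf x) := by
        rw [norm_sub_rev]
        exact h1.trans (mul_le_mul_of_nonneg_right (le_max_left _ _) h3.le)
      rw [add_mul, one_mul]
      linarith
  set s : ℕ := ⌊d / (64 * (1 + C1))⌋₊ with hs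
  have hs1 : (s : ℝ) ≤ d / (64 * (1 + C1)) := Nat.floor_le (by positivity)
  have hs2 : d / (64 * (1 + C1)) < s + 1 := Nat.lt_floor_add_one _
  rw [le_div_iff₀ (by positivity)] at hs1
  rw [div_lt_iff₀ (by positivity)] at hs2
  have hsz : ∀ x ∈ X, d ≤ 32 * (1 + C1) * ((sz T x : ℝ) + 1) ∧ s ≤ sz T x := by
    intro x hx
    have h1 := (key x hx).2
    have h2 := dU_le_sz (T := T) (x := x)
    have h3 : d ≤ 32 * (1 + C1) * ((sz T x : ℝ) + 1) := by
      calc d ≤ (1 + C1) * dU T (cf x) := h1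
        _ ≤ (1 + C1) * (32 * ((sz T x : ℝ) + 1)) := by gcongr
        _ = _ := by ring
    refine ⟨h3, ?_⟩
    by_contra hc
    push Not at hc
    have hc' : (sz T x : ℝ) + 1 ≤ s := by exact_mod_cast hc
    have h4 : (s : ℝ) * (64 * (1 + C1)) ≤ 32 * (1 + C1) * s := by
      calc (s : ℝ) * (64 * (1 + C1)) ≤ d := hs1
        _ ≤ 32 * (1 + C1) * ((sz T x : ℝ) + 1) := h3
        _ ≤ _ := by gcongr
    have h5 : (1 : ℝ) ≤ s := by
      have : (0 : ℝ) ≤ sz T x := Nat.cast_nonneg _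
      linarith
    nlinarith
  -- blocks
  set q : ℤ := (s : ℤ) + 1 with hq
  have hq0 : 0 < q := by omega
  have hqR : (q : ℝ) = s + 1 := by rw [hq]; push_cast; ring
  have hqR0 : (0 : ℝ) < q := by exact_mod_cast hq0
  set β : Pt → ℤ × ℤ := fun x => (x.1 / q, x.2 / q) with hβ
  have hrange : ∀ (u : ℝ) (k : ℤ), |(k : ℝ) + 1 / 2 - u| ≤ C1 * d →
      k / q ∈ Finset.Icc ⌊(u - 1 / 2 - C1 * d) / q⌋ (⌊(u - 1 / 2 - C1 * d) / q⌋ + (⌈L⌉₊ + 1 : ℕ)) := by
    intro u k hk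
    rw [abs_le] at hk
    have e1 : k / q = ⌊(k : ℝ) / q⌋ := by
      rw [eq_comm, Int.floor_eq_iff, le_div_iff₀ hqR0, div_lt_iff₀ hqR0]
      have e2 := Int.emod_add_mul_ediv k q
      have e3 := Int.emod_nonneg k hq0.ne'
      have e4 := Int.emod_lt_of_pos k hq0
      have e5 : ((k % q : ℤ) : ℝ) + q * ((k / q : ℤ) : ℝ) = k := by exact_mod_cast e2
      have e6 : (0 : ℝ) ≤ ((k % q : ℤ) : ℝ) := by exact_mod_cast e3
      have e7 : ((k % q : ℤ) : ℝ) < q := by exact_mod_cast e4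
      constructor <;> nlinarith
    rw [e1, Finset.mem_Icc]
    constructor
    · apply Int.floor_le_floor
      gcongr
      linarith
    · have h1 := Int.floor_le ((k : ℝ) / q)
      have h2 := Int.lt_floor_add_one ((u - 1 / 2 - C1 * d) / q)
      have h3 : (k : ℝ) / q ≤ (u - 1 / 2 - C1 * d) / q + L := by
        rw [div_le_iff₀ hqR0, add_mul, div_mul_cancel₀ _ hqR0.ne']
        have h4 : 2 * (C1 * d) ≤ L * q := by
          rw [hqR, hL]
          have := mul_le_mul_of_nonneg_left hs2.le (show 0 ≤ 2 * C1 by positivity)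
          nlinarith
        linarith
      have h5 := Nat.le_ceil L
      have h6 : (⌊(k : ℝ) / q⌋ : ℝ) < ((⌊(u - 1 / 2 - C1 * d) / q⌋ + (⌈L⌉₊ + 1 : ℕ) : ℤ) : ℝ) := by
        push_cast
        linarith
      have h7 : ⌊(k : ℝ) / q⌋ < ⌊(u - 1 / 2 - C1 * d) / q⌋ + (⌈L⌉₊ + 1 : ℕ) := by exact_mod_cast h6
      exact h7.le
  have himg : X.image β ⊆
      Finset.Icc ⌊((f w).re - 1 / 2 - C1 * d) / q⌋ (⌊((f w).re - 1 / 2 - C1 * d) / q⌋ + (⌈L⌉₊ + 1 : ℕ)) ×ˢ
      Finset.Icc ⌊((f w).im - 1 / 2 - C1 * d) / q⌋ (⌊((f w).im - 1 / 2 - C1 * d) / q⌋ + (⌈L⌉₊ + 1 : ℕ)) := by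
    intro b hb
    obtain ⟨x, hx, rfl⟩ := Finset.mem_image.1 hb
    have h1 := (key x hx).1
    rw [Finset.mem_product]
    constructor
    · apply hrange
      have := (abs_re_le_norm (cf x - f w)).trans h1
      rwa [sub_re, cf_re] at this
    · apply hrange
      have := (abs_im_le_norm (cf x - f w)).trans h1
      rwa [sub_im, cf_im] at this
  have hcard : (X.image β).card ≤ (⌈L⌉₊ + 2) ^ 2 := by
    refine (Finset.card_le_card himg).trans (le_of_eq ?_)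
    rw [Finset.card_product, Int.card_Icc, Int.card_Icc, sq]
    congr 1 <;> omega
  choose! r hr using fun b (hb : b ∈ X.image β) => Finset.mem_image.1 hb
  refine ⟨(X.image β).image r, Finset.card_image_le.trans hcard, ?_, ?_⟩
  · intro z hz
    obtain ⟨b, hb, rfl⟩ := Finset.mem_image.1 hz
    have h1 := (hr b hb).1
    exact ⟨((hmem _).1 h1).1, ((hmem _).1 h1).2, (hsz _ h1).1⟩
  · intro x hx hxA
    have hxX : x ∈ X := (hmem x).2 ⟨hx, hxA⟩
    have hb : β x ∈ X.image β := Finset.mem_image_of_mem _ hxX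
    refine ⟨r (β x), Finset.mem_image_of_mem _ hb, ?_⟩
    obtain ⟨h1, h2⟩ := hr _ hb
    rw [mem_box_dn]
    refine le_trans ?_ (hsz _ h1).2
    set z := r (β x) with hz
    have h3 : z.1 / q = x.1 / q := congrArg Prod.fst h2
    have h4 : z.2 / q = x.2 / q := congrArg Prod.snd h2
    have e1 := Int.emod_add_mul_ediv z.1 q
    have e2 := Int.emod_add_mul_ediv x.1 q
    have e3 := Int.emod_add_mul_ediv z.2 q
    have e4 := Int.emod_add_mul_ediv x.2 q
    have f1 := Int.emod_nonneg z.1 hq0.ne'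
    have f2 := Int.emod_nonneg x.1 hq0.ne'
    have f3 := Int.emod_nonneg z.2 hq0.ne'
    have f4 := Int.emod_nonneg x.2 hq0.ne'
    have g1 := Int.emod_lt_of_pos z.1 hq0
    have g2 := Int.emod_lt_of_pos x.1 hq0
    have g3 := Int.emod_lt_of_pos z.2 hq0
    have g4 := Int.emod_lt_of_pos x.2 hq0
    rw [h3] at e1
    rw [h4] at e3
    rw [H904.dn_le_iff, abs_le, abs_le]
    refine ⟨⟨?_, ?_⟩, ?_, ?_⟩ <;> omega

end Vale.Agent.P155.BDK
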