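import Vale.Agent.P155.BDK.Pv
import Vale.Agent.P155.T211B.Grow
import Vale.Agent.P155.H354.Trace

/-!
# P155, block BD (B6b): the collar (`COLB`)
-/

namespace Vale.Agent.P155.BDK

open Complex Metric Set Skel
open Vale.Agent.P155 Vale.Agent.P155.BD Vale.Agent.P155.T733
open scoped ComplexConjugate

theorem HH_zero (w : ℂ) : HH w 0 = (1 - ‖w‖ ^ 2)⁻¹ := by
  unfold HH
  simp

theorem le_HH' {w w' : ℂ} (h : ‖w‖ < 1) (h' : ‖w'‖ < 1) :
    ‖w - w'‖ ^ 2 / ((1 - ‖w‖ ^ 2) * (1 - ‖w'‖ ^ 2)) ≤ HH w w' := by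
  have h1 := one_sub_pos h
  have h2 := one_sub_pos h'
  unfold HH
  gcongr
  exact BD.norm_sub_le h h'

/-- separated points: good if the polygon is macroscopic seen from `f 0` -/
theorem good_far {a e : ℝ} (ha : a ≤ 1 / 4) (he : 0 < e) :
    ∃ R₀ : ℕ, ∀ R : ℕ, R₀ ≤ R → ∀ (T : Temp) (f φ : ℂ → ℂ), RM T f φ →
      (R : ℝ) ^ (1 / 2 : ℝ) ≤ dU T (f 0) → ∀ w w' : ℂ, ‖w‖ < 1 → ‖w'‖ < 1 → e ≤ ‖w - w'‖ →
      Good a (1 / 80) R T f w w' := by
  have t2 : Filter.Tendsto (fun R : ℕ => 1 / 80 * Real.log R) Filter.atTop Filter.atTop :=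
    (Real.tendsto_log_atTop.comp tendsto_natCast_atTop_atTop).const_mul_atTop (by positivity)
  obtain ⟨R₀, hR₀⟩ := Filter.eventually_atTop.1 ((Filter.eventually_ge_atTop 1).and
    (t2.eventually_ge_atTop (-Real.log (e ^ 2 / 4))))
  refine ⟨R₀, ?_⟩
  intro R hR T f φ h hf0 w w' hw hw' hd
  obtain ⟨hR1, hR2⟩ := hR₀ R hR
  have hRr : (1 : ℝ) ≤ R := by exact_mod_cast hR1
  have hRr0 : (0 : ℝ) < R := by linarith
  have h0 : (0 : ℂ) ∈ ball (0 : ℂ) 1 := mem_ball_self one_pos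
  -- a small box is at small height
  have key : ∀ u : ℂ, ‖u‖ < 1 → dU T (f u) < (R : ℝ) ^ a → 1 - ‖u‖ ^ 2 ≤ 4 * (R : ℝ) ^ (-(1 / 40) : ℝ) := by
    intro u hu hlt
    have h1 := (T211B.kog h (mem_ball_zero_iff.2 hu) h0).2
    have hu0 := one_sub_pos hu
    set H := 4 * HH u 0 with hH
    have hH0 : 0 < H := by
      rw [hH, HH_zero]
      positivity
    have h2 : (R : ℝ) ^ (1 / 2 : ℝ) ≤ H ^ 10 * (R : ℝ) ^ a :=
      hf0.trans (h1.trans (mul_le_mul_of_nonneg_left hlt.le (by positivity)))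
    have h3 : (R : ℝ) ^ (1 / 4 : ℝ) ≤ H ^ 10 := by
      have h4 : (R : ℝ) ^ a ≤ (R : ℝ) ^ (1 / 4 : ℝ) := Real.rpow_le_rpow_of_exponent_le hRr ha
      have h5 : (R : ℝ) ^ (1 / 4 : ℝ) * (R : ℝ) ^ (1 / 4 : ℝ) ≤ H ^ 10 * (R : ℝ) ^ (1 / 4 : ℝ) := by
        rw [← Real.rpow_add hRr0]
        norm_num
        refine le_trans ?_ (h2.trans ?_)
        · norm_num
        · exact mul_le_mul_of_nonneg_left h4 (by positivity)
      exact le_of_mul_le_mul_right h5 (by positivity)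
    have h6 : (R : ℝ) ^ (1 / 40 : ℝ) ≤ H := by
      have e1 : (R : ℝ) ^ (1 / 4 : ℝ) = ((R : ℝ) ^ (1 / 40 : ℝ)) ^ 10 := by
        rw [← Real.rpow_natCast, ← Real.rpow_mul hRr0.le]
        norm_num
      rw [e1] at h3
      exact le_of_pow_le_pow_left₀ (by norm_num) hH0.le h3
    have h7 : (1 - ‖u‖ ^ 2) * H = 4 := by
      rw [hH, HH_zero]
      field_simp
    rw [Real.rpow_neg hRr0.le, ← div_eq_mul_inv, le_div_iff₀ (by positivity)]
    nlinarith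
  have key2 : ∀ u v : ℂ, ‖u‖ < 1 → ‖v‖ < 1 → e ≤ ‖u - v‖ → dU T (f u) < (R : ℝ) ^ a →
      1 / 80 * Real.log R ≤ Real.log (HH u v) := by
    intro u v hu hv huv hlt
    have k1 := key u hu hlt
    have k2 := le_HH' hu hv
    have hu0 := one_sub_pos hu
    have hv0 := one_sub_pos hv
    have hp : 0 < (R : ℝ) ^ (-(1 / 40) : ℝ) := by positivity
    have k3 : e ^ 2 / 4 * (R : ℝ) ^ (1 / 40 : ℝ) ≤ HH u v := by
      refine le_trans ?_ k2
      have k4 : e ^ 2 / 4 * (R : ℝ) ^ (1 / 40 : ℝ) = e ^ 2 / (4 * (R : ℝ) ^ (-(1 / 40) : ℝ)) := by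
        rw [Real.rpow_neg hRr0.le]
        field_simp
      rw [k4]
      have k5 : (1 - ‖u‖ ^ 2) * (1 - ‖v‖ ^ 2) ≤ 4 * (R : ℝ) ^ (-(1 / 40) : ℝ) := by
        have : 1 - ‖v‖ ^ 2 ≤ 1 := by nlinarith [norm_nonneg v]
        nlinarith
      exact div_le_div₀ (by positivity) (pow_le_pow_left₀ he.le huv 2) (by positivity) k5
    have k6 := Real.log_le_log (by positivity) k3
    rw [Real.log_mul (by positivity) (by positivity), Real.log_rpow hRr0] at k6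
    linarith
  by_cases h1 : (R : ℝ) ^ a ≤ dU T (f w)
  · by_cases h2 : (R : ℝ) ^ a ≤ dU T (f w')
    · exact Or.inl ⟨h1, h2⟩
    · right
      rw [HH_comm]
      exact key2 w' w hw' hw (by rwa [norm_sub_rev]) (not_le.1 h2)
  · exact Or.inr (key2 w w' hw hw' hd (not_le.1 h1))

/-- **[COLB]** -/
theorem colb {D : Temp → Pt → Pt → ℝ}
    (hD : ∀ T : Temp, ∀ x ∈ T.faceSet, ∀ y ∈ T.faceSet, D T x y = dd T x y) (hP : PAIR D) :
    COLB := by
  refine ⟨1 / 2, by norm_num, by norm_num, ?_⟩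
  intro e ε he hε
  obtain ⟨a, c, C, R1, ha, ha1, hc, hC, hpv⟩ := pv_le hD hP (A := 16) (by norm_num) (1 / 80) (1 / 4)
    (by norm_num) (by norm_num)
  obtain ⟨τ, hτ, hτ1, hcol⟩ := collar (c := c) (CP := C) (e := e) (ε := ε) hc hC he hε
  obtain ⟨R2, hR2⟩ := good_far (a := a) (e := e / 2) ha1 (by positivity)
  refine ⟨τ, hτ, max R1 R2, ?_⟩
  intro R T hR hfit f φ h hf0 N hT
  apply hcol T.V (trc φ) N hT
  rintro K - K' - - - ⟨w, hw, w', hw', hww⟩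
  refine hpv R T ((le_max_left _ _).trans hR) hfit f φ h (trc φ)
    (fun ω hω L hL w hw => visW_of_mem T211B.sp h hω hL hw) K K' w w' (e / 2) hw hw' (by positivity)
    hww ?_
  refine hR2 R ((le_max_right _ _).trans hR) T f φ h ?_ w w' (dbox_sub hw) (dbox_sub hw') hww
  convert hf0 using 2
  norm_num

end Vale.Agent.P155.BDK
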