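import Vale.Agent.P155.BD.Props
import Vale.Agent.P155.BD276.Conf

/-!
# P155, block BD: Koebe distortion (`KO`)
-/

namespace Vale.Agent.P155.BDK

open Complex Metric Set
open Vale.Agent.P155 Vale.Agent.P155.BD
open scoped ComplexConjugate

theorem mem_sqr_iff {z : ℂ} {x : Pt} : z ∈ sqr 1 0 x ↔
    ((x.1 : ℝ) ≤ z.re ∧ z.re ≤ x.1 + 1) ∧ (x.2 : ℝ) ≤ z.im ∧ z.im ≤ x.2 + 1 := by
  unfold sqr
  simp only [mem_ofPred_eq]
  constructor
  · rintro ⟨s, t, h1, h2, h3, h4, rfl⟩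
    simp
    refine ⟨⟨h1, h2⟩, h3, h4⟩
  · rintro ⟨⟨h1, h2⟩, h3, h4⟩
    refine ⟨z.re - x.1, z.im - x.2, by linarith, by linarith, by linarith, by linarith, ?_⟩
    apply Complex.ext <;> simp

theorem cf_re (x : Pt) : (cf x).re = x.1 + 1 / 2 := by simp [cf]

theorem cf_im (x : Pt) : (cf x).im = x.2 + 1 / 2 := by simp [cf]

/-- a face whose centre is in the region belongs to the set -/
theorem mem_of_cf {O : Set Pt} {x : Pt} (h : cf x ∈ region 1 0 O) : x ∈ O := by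
  unfold region at h
  obtain ⟨y, hy, hxy⟩ := mem_iUnion₂.1 h
  rw [mem_sqr_iff, cf_re, cf_im] at hxy
  obtain ⟨⟨h1, h2⟩, h3, h4⟩ := hxy
  have e1 : x.1 = y.1 := by
    have a1 : (y.1 : ℝ) < x.1 + 1 := by linarith
    have a2 : (x.1 : ℝ) < y.1 + 1 := by linarith
    have b1 : y.1 < x.1 + 1 := by exact_mod_cast a1
    have b2 : x.1 < y.1 + 1 := by exact_mod_cast a2
    omega
  have e2 : x.2 = y.2 := by
    have a1 : (y.2 : ℝ) < x.2 + 1 := by linarith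
    have a2 : (x.2 : ℝ) < y.2 + 1 := by linarith
    have b1 : y.2 < x.2 + 1 := by exact_mod_cast a1
    have b2 : x.2 < y.2 + 1 := by exact_mod_cast a2
    omega
  have : x = y := Prod.ext e1 e2
  rwa [this]

theorem UU_open (T : Temp) : IsOpen (UU T) := isOpen_interior

theorem exists_notMem (T : Temp) : ∃ y, y ∉ T.faceSet :=
  H904.exists_not_mem_of_finite (A1.faceSet_finite T)

theorem UU_compl_ne (T : Temp) : (UU T)ᶜ.Nonempty := by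
  obtain ⟨y, hy⟩ := exists_notMem T
  exact ⟨cf y, fun h => hy (mem_of_cf (interior_subset h))⟩

/-- Riemann maps are conformal pairs -/
theorem cpair {T : Temp} {f φ : ℂ → ℂ} (h : RM T f φ) : BD276.CPair (UU T) f φ where
  opn := UU_open T
  ne := UU_compl_ne T
  hf := h.hf
  hg := h.hφ
  fD := fun w hw => ⟨h.maps w hw, h.left w hw⟩
  gB := fun z hz => ⟨h.maps' z hz, h.right z hz⟩

theorem le_norm_one_sub {w w' : ℂ} (h : ‖w‖ < 1) (h' : ‖w'‖ < 1) : 1 - ‖w‖ ≤ ‖1 - conj w * w'‖ := by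
  have h6 := norm_sub_norm_le (1 : ℂ) (conj w * w')
  rw [norm_one, norm_mul, Complex.norm_conj] at h6
  have : ‖w‖ * ‖w'‖ ≤ ‖w‖ := by nlinarith [norm_nonneg w]
  linarith

theorem norm_sq_le {w w' : ℂ} {A : ℝ} (h : ‖w‖ < 1) (h' : ‖w'‖ < 1) (hA : HH w w' ≤ A) :
    ‖1 - conj w * w'‖ ^ 2 ≤ 4 * A * ((1 - ‖w‖) * (1 - ‖w'‖)) := by
  have h1 := one_sub_pos h
  have h2 := one_sub_pos h'
  have hA1 : 1 ≤ A := (one_le_HH h h').trans hA
  unfold HH at hA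
  rw [div_le_iff₀ (by positivity)] at hA
  refine hA.trans ?_
  have e1 : 1 - ‖w‖ ^ 2 ≤ 2 * (1 - ‖w‖) := by nlinarith [norm_nonneg w]
  have e2 : 1 - ‖w'‖ ^ 2 ≤ 2 * (1 - ‖w'‖) := by nlinarith [norm_nonneg w']
  have e3 : (1 - ‖w‖ ^ 2) * (1 - ‖w'‖ ^ 2) ≤ 2 * (1 - ‖w‖) * (2 * (1 - ‖w'‖)) :=
    mul_le_mul e1 e2 h2.le (by linarith)
  nlinarith

theorem hgt_cmp {w w' : ℂ} {A : ℝ} (h : ‖w‖ < 1) (h' : ‖w'‖ < 1) (hA : HH w w' ≤ A) :
    1 - ‖w‖ ≤ 4 * A * (1 - ‖w'‖) := by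
  have h1 := norm_sq_le h h' hA
  have h2 := le_norm_one_sub h h'
  have h3 : 0 < 1 - ‖w‖ := by linarith
  have h4 : (1 - ‖w‖) * (1 - ‖w‖) ≤ (4 * A * (1 - ‖w'‖)) * (1 - ‖w‖) := by
    have := pow_le_pow_left₀ h3.le h2 2
    nlinarith
  exact le_of_mul_le_mul_right h4 h3

/-- points at bounded hyperbolic distance, in Euclidean terms -/
theorem near_of_HH {w w' : ℂ} {A t : ℝ} (h : ‖w‖ < 1) (h' : ‖w'‖ < 1) (hA : HH w w' ≤ A)
    (ht : t = min (1 - ‖w‖) (1 - ‖w'‖)) : ‖w' - w‖ ≤ 4 * A * t := by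
  have hA1 : 1 ≤ A := (one_le_HH h h').trans hA
  have h1 := norm_sq_le h h' hA
  have h2 := hgt_cmp h h' hA
  have h3 := hgt_cmp h' h ((HH_comm w' w).le.trans hA)
  have h4 := BD.norm_sub_le h h'
  have ht0 : 0 < t := by
    rw [ht]
    exact lt_min (by linarith) (by linarith)
  have h5 : (1 - ‖w‖) * (1 - ‖w'‖) ≤ 4 * A * t * t := by
    rcases min_choice (1 - ‖w‖) (1 - ‖w'‖) with h | h <;> rw [h] at ht <;> rw [← ht] at h2 h3 ⊢ <;>
      nlinarith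
  rw [norm_sub_rev]
  have h6 : ‖w - w'‖ ^ 2 ≤ (4 * A * t) ^ 2 := by
    calc ‖w - w'‖ ^ 2 ≤ ‖1 - conj w * w'‖ ^ 2 := pow_le_pow_left₀ (norm_nonneg _) h4 2
      _ ≤ 4 * A * ((1 - ‖w‖) * (1 - ‖w'‖)) := h1
      _ ≤ 4 * A * (4 * A * t * t) := by gcongr
      _ = (4 * A * t) ^ 2 := by ring
  exact (abs_le_of_sq_le_sq' h6 (by positivity)).2

/-- **Koebe distortion** -/
theorem ko : KO := by
  intro A
  refine ⟨Real.exp (10 * (4 * A)) - 1, ?_⟩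
  intro T f φ h w hw w' hw' hA
  have h1 := mem_ball_zero_iff.1 hw
  have h2 := mem_ball_zero_iff.1 hw'
  have hA1 : 1 ≤ A := (one_le_HH h1 h2).trans hA
  have h3 := near_of_HH h1 h2 hA rfl
  have h4 := (cpair h).near (M := 4 * A) (t := min (1 - ‖w‖) (1 - ‖w'‖)) (by positivity)
    (lt_min (by linarith) (by linarith)) (min_le_left _ _) (min_le_right _ _) h3
  rw [norm_sub_rev, mul_comm]
  exact h4

end Vale.Agent.P155.BDK
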