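import Vale.Agent.P155.BDK.Cov
import Vale.Agent.P155.BD.Props2

/-!
# P155, block BD (B6a): the pair bound for two dyadic boxes of the disc
-/

namespace Vale.Agent.P155.BDK

open Complex Metric Set Skel
open Vale.Agent.P155 Vale.Agent.P155.BD Vale.Agent.P155.T733
open scoped ComplexConjugate

/-- heights in a dyadic box -/
theorem dbox_hgt {K : ℕ × ℕ} {w : ℂ} (hw : w ∈ dbox K) :
    (1 / 2) ^ (K.1 + 1) ≤ 1 - ‖w‖ ∧ 1 - ‖w‖ ≤ (1 / 2) ^ K.1 := by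
  obtain ⟨θ, t, -, -, h3, h4, rfl⟩ := hw
  have h5 : (1 / 2 : ℝ) ^ K.1 ≤ 1 := pow_le_one₀ (by norm_num) (by norm_num)
  rw [norm_mul, norm_ee, mul_one, norm_real_sub, abs_of_nonneg (by linarith)]
  constructor <;> linarith

theorem dbox_sub {K : ℕ × ℕ} {w : ℂ} (hw : w ∈ dbox K) : ‖w‖ < 1 := by
  have h1 := (dbox_hgt hw).1
  have h2 : (0 : ℝ) < (1 / 2) ^ (K.1 + 1) := by positivity
  linarith

/-- a dyadic box has bounded hyperbolic diameter -/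
theorem dbox_HH {K : ℕ × ℕ} {w w' : ℂ} (hw : w ∈ dbox K) (hw' : w' ∈ dbox K) : HH w w' ≤ 197 := by
  have h1 := (dbox_hgt hw).1
  have h2 := (dbox_hgt hw').1
  have h3 := dbox_diam hw hw'
  have hp : (0 : ℝ) < (1 / 2) ^ K.1 := by positivity
  rw [pow_succ] at h1 h2
  have e1 : (1 / 2) ^ K.1 * (1 / 2) ≤ 1 - ‖w‖ ^ 2 := by
    nlinarith [norm_nonneg w, mul_nonneg (norm_nonneg w) (show 0 ≤ 1 - ‖w‖ by nlinarith)]
  have e2 : (1 / 2) ^ K.1 * (1 / 2) ≤ 1 - ‖w'‖ ^ 2 := by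
    nlinarith [norm_nonneg w', mul_nonneg (norm_nonneg w') (show 0 ≤ 1 - ‖w'‖ by nlinarith)]
  have e3 : (1 / 2) ^ K.1 * (1 / 2) * ((1 / 2) ^ K.1 * (1 / 2)) ≤
      (1 - ‖w‖ ^ 2) * (1 - ‖w'‖ ^ 2) := mul_le_mul e1 e2 (by positivity) (by nlinarith)
  have e4 : ‖w - w'‖ ^ 2 ≤ (7 * (1 / 2) ^ K.1) ^ 2 := pow_le_pow_left₀ (norm_nonneg _) h3 2
  have e5 : 0 < (1 - ‖w‖ ^ 2) * (1 - ‖w'‖ ^ 2) := by
    refine lt_of_lt_of_le ?_ e3
    positivity
  unfold HH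
  rw [div_le_iff₀ e5, id1]
  nlinarith

/-- lower bound of the distance of two points of dyadic boxes -/
theorem le_HH {K K' : ℕ × ℕ} {w w' : ℂ} {l : ℝ} (hw : w ∈ dbox K) (hw' : w' ∈ dbox K')
    (hl0 : 0 < l) (hl : l ≤ ‖w - w'‖) :
    l ^ 2 / (4 * ((1 / 2) ^ K.1 * (1 / 2) ^ K'.1)) ≤ HH w w' := by
  have h1 := (dbox_hgt hw).2
  have h2 := (dbox_hgt hw').2
  have h3 := dbox_sub hw
  have h4 := dbox_sub hw'
  have e1 : 1 - ‖w‖ ^ 2 ≤ 2 * (1 / 2) ^ K.1 := by nlinarith [norm_nonneg w]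
  have e2 : 1 - ‖w'‖ ^ 2 ≤ 2 * (1 / 2) ^ K'.1 := by nlinarith [norm_nonneg w']
  have e0 := one_sub_pos h3
  have e0' := one_sub_pos h4
  have e3 : (1 - ‖w‖ ^ 2) * (1 - ‖w'‖ ^ 2) ≤ 4 * ((1 / 2) ^ K.1 * (1 / 2) ^ K'.1) := by
    calc (1 - ‖w‖ ^ 2) * (1 - ‖w'‖ ^ 2) ≤ (2 * (1 / 2) ^ K.1) * (2 * (1 / 2) ^ K'.1) :=
          mul_le_mul e1 e2 e0'.le (by positivity)
      _ = _ := by ring
  unfold HH
  have e4 : l ^ 2 ≤ ‖1 - conj w * w'‖ ^ 2 :=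
    pow_le_pow_left₀ hl0.le (hl.trans (BD.norm_sub_le h3 h4)) 2
  exact div_le_div₀ (by positivity) e4 (by positivity) e3

/-- the bound of the pair probability, algebra -/
theorem rpow_bound {c M x l : ℝ} {n m : ℕ} (hc : 0 < c) (hM : 0 < M) (hl : 0 < l)
    (h : l ^ 2 / (4 * ((1 / 2) ^ n * (1 / 2) ^ m)) ≤ M * x) :
    Real.exp (-c * Real.log x) ≤
      (4 * M) ^ c * (((1 / 2 : ℝ) ^ c) ^ n * ((1 / 2 : ℝ) ^ c) ^ m / (l ^ 2) ^ c) := by
  have hnm : (0 : ℝ) < (1 / 2) ^ n * (1 / 2) ^ m := by positivity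
  have h1 : 0 < M * x := lt_of_lt_of_le (by positivity) h
  have hx : 0 < x := (mul_pos_iff_of_pos_left hM).1 h1
  have e1 : Real.exp (-c * Real.log x) = (x⁻¹) ^ c := by
    rw [Real.rpow_def_of_pos (inv_pos.2 hx), Real.log_inv]
    congr 1
    ring
  have e2 : x⁻¹ ≤ 4 * M * ((1 / 2) ^ n * (1 / 2) ^ m) / l ^ 2 := by
    rw [div_le_iff₀ (by positivity)] at h
    rw [inv_le_iff_one_le_mul₀ hx, div_mul_eq_mul_div, one_le_div (by positivity)]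
    linarith
  rw [e1]
  calc (x⁻¹) ^ c ≤ (4 * M * ((1 / 2) ^ n * (1 / 2) ^ m) / l ^ 2) ^ c :=
        Real.rpow_le_rpow (by positivity) e2 hc.le
    _ = _ := by
        rw [Real.div_rpow (by positivity) (by positivity),
          Real.mul_rpow (x := 4 * M) (by positivity) (by positivity),
          Real.mul_rpow (x := (1 / 2 : ℝ) ^ n) (by positivity) (by positivity), mul_div_assoc,
          Real.rpow_pow_comm (by norm_num), Real.rpow_pow_comm (by norm_num)]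

/-- `dd` in terms of any Riemann map -/
theorem dd_eq {T : Temp} {f φ : ℂ → ℂ} (h : RM T f φ) {x y : Pt} (hx : x ∈ T.faceSet)
    (hy : y ∈ T.faceSet) : dd T x y = Real.log (4 * HH (φ (cf x)) (φ (cf y))) := by
  obtain ⟨f', h'⟩ := rmap_spec h
  unfold dd
  rw [hh_inv h' h (cf_mem hx) (cf_mem hy)]

/-- good pairs of points of the disc: the pair bound is known for them -/
def Good (a a' : ℝ) (R : ℕ) (T : Temp) (f : ℂ → ℂ) (w w' : ℂ) : Prop :=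
  ((R : ℝ) ^ a ≤ dU T (f w) ∧ (R : ℝ) ^ a ≤ dU T (f w')) ∨ a' * Real.log R ≤ Real.log (HH w w')

/-- **The pair bound for two dyadic boxes.** -/
theorem pv_le {D : Temp → Pt → Pt → ℝ}
    (hD : ∀ T : Temp, ∀ x ∈ T.faceSet, ∀ y ∈ T.faceSet, D T x y = dd T x y) (hP : PAIR D)
    {A : ℝ} (hA : 1 ≤ A) : ∀ a' a1 : ℝ, 0 < a' → 0 < a1 → ∃ a c C : ℝ, ∃ R₀ : ℕ,
      0 < a ∧ a ≤ a1 ∧ 0 < c ∧ 0 ≤ C ∧ ∀ (R : ℕ) (T : Temp), R₀ ≤ R → Fits T R →
      ∀ f φ : ℂ → ℂ, RM T f φ → ∀ tr : Conf → Set Pt → Set ℂ,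
      (∀ ω ∈ DD T.V, ∀ L ∈ Loops ω, ∀ w ∈ tr ω L, VisW φ A ω L w) →
      ∀ (K K' : ℕ × ℕ) (w w' : ℂ) (l : ℝ), w ∈ dbox K → w' ∈ dbox K' → 0 < l → l ≤ ‖w - w'‖ →
      Good a a' R T f w w' →
      pv T.V tr K K' ≤ C * (((1 / 2 : ℝ) ^ c) ^ K.1 * ((1 / 2 : ℝ) ^ c) ^ K'.1 / (l ^ 2) ^ c) := by
  classical
  intro a' a1 ha' ha1
  obtain ⟨N0, C3, hC3, hcov⟩ := cover (4 * A * 197)
  obtain ⟨a, c, C, ha, haa, hc, hC, hpair⟩ := hP (a' / 2) (a1 / 2) (by positivity) (by positivity)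
  set M : ℝ := 4 * (4 * A * 197) * (4 * (4 * A * 197)) with hM
  have hM1 : 1 ≤ M := by nlinarith
  obtain ⟨R1, hR1⟩ : ∃ R1 : ℕ, ∀ R : ℕ, R1 ≤ R → 1 ≤ R ∧ 2 * C3 ≤ (R : ℝ) ^ a ∧
      Real.log M ≤ a' / 2 * Real.log R := by
    have t1 : Filter.Tendsto (fun R : ℕ => (R : ℝ) ^ a) Filter.atTop Filter.atTop :=
      (tendsto_rpow_atTop ha).comp tendsto_natCast_atTop_atTop
    have t2 : Filter.Tendsto (fun R : ℕ => a' / 2 * Real.log R) Filter.atTop Filter.atTop :=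
      (Real.tendsto_log_atTop.comp tendsto_natCast_atTop_atTop).const_mul_atTop (by positivity)
    have h3 := ((Filter.eventually_ge_atTop 1).and ((t1.eventually_ge_atTop (2 * C3)).and
      (t2.eventually_ge_atTop (Real.log M))))
    exact Filter.eventually_atTop.1 h3
  refine ⟨2 * a, c, (N0 : ℝ) * (N0 * (C * (4 * M) ^ c)), R1, by positivity, by linarith, hc,
    by positivity, ?_⟩
  intro R T hR hfit f φ h tr htr K K' w w' l hw hw' hl0 hl hgood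
  obtain ⟨hR0, hRa, hRM⟩ := hR1 R hR
  have hRr : (1 : ℝ) ≤ R := by exact_mod_cast hR0
  have hRr0 : (0 : ℝ) < R := by linarith
  have hw1 := dbox_sub hw
  have hw1' := dbox_sub hw'
  obtain ⟨Z, hZ1, hZ2, hZ3⟩ := hcov T f φ h w (mem_ball_zero_iff.2 hw1)
  obtain ⟨Z', hZ1', hZ2', hZ3'⟩ := hcov T f φ h w' (mem_ball_zero_iff.2 hw1')
  set B : ℝ := C * (4 * M) ^ c *
    (((1 / 2 : ℝ) ^ c) ^ K.1 * ((1 / 2 : ℝ) ^ c) ^ K'.1 / (l ^ 2) ^ c) with hB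
  have hB0 : 0 ≤ B := by positivity
  -- a loop which visits the dyadic box visits one of the lattice boxes
  have hvis : ∀ (K : ℕ × ℕ) (w : ℂ), w ∈ dbox K → ∀ Z : Finset Pt,
      (∀ x ∈ T.faceSet, HH (φ (cf x)) w ≤ 4 * A * 197 → ∃ z ∈ Z, x ∈ box z (sz T z)) →
      ∀ ω ∈ DD T.V, ∀ L ∈ Loops ω, (tr ω L ∩ dbox K).Nonempty → ∃ z ∈ Z, Vis ω L z (sz T z) := by
    rintro K w hw Z hZ ω hω L hL ⟨u, hu1, hu2⟩
    obtain ⟨x, hx1, hx2⟩ := htr ω hω L hL u hu1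
    have hx : x ∈ T.faceSet := A1.L_in hω hL hx1.1
    have hφx := mem_ball_zero_iff.1 (h.maps' _ (cf_mem hx))
    have h1 := HH_tri hφx (dbox_sub hu2) (dbox_sub hw)
    have h2 := dbox_HH hu2 hw
    have h3 := one_le_HH (dbox_sub hu2) (dbox_sub hw)
    obtain ⟨z, hz, hxz⟩ := hZ x hx (h1.trans (by gcongr))
    exact ⟨z, hz, x, hxz, hx1⟩
  have hmain : ∀ z ∈ Z, ∀ z' ∈ Z',
      Pr T.V (fun ω => ∃ L ∈ Loops ω, Vis ω L z (sz T z) ∧ Vis ω L z' (sz T z')) ≤ B := by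
    intro z hz z' hz'
    obtain ⟨g1, g2, g3⟩ := hZ2 z hz
    obtain ⟨g1', g2', g3'⟩ := hZ2' z' hz'
    have hφz := mem_ball_zero_iff.1 (h.maps' _ (cf_mem g1))
    have hφz' := mem_ball_zero_iff.1 (h.maps' _ (cf_mem g1'))
    have hHH : HH w w' ≤ M * HH (φ (cf z)) (φ (cf z')) := by
      have k1 := HH_tri hw1 hφz hw1'
      have k2 := HH_tri hφz hφz' hw1'
      have k0 : HH w (φ (cf z)) ≤ 4 * A * 197 := by rw [HH_comm]; exact g2
      have k3 := one_le_HH hφz hφz'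
      have k4 := one_le_HH hφz hw1'
      calc HH w w' ≤ 4 * HH w (φ (cf z)) * HH (φ (cf z)) w' := k1
        _ ≤ 4 * (4 * A * 197) * (4 * HH (φ (cf z)) (φ (cf z')) * HH (φ (cf z')) w') := by gcongr
        _ ≤ 4 * (4 * A * 197) * (4 * HH (φ (cf z)) (φ (cf z')) * (4 * A * 197)) := by gcongr
        _ = _ := by rw [hM]; ring
    have hdd : D T z z' = Real.log (4 * HH (φ (cf z)) (φ (cf z'))) := by
      rw [hD T z g1 z' g1', dd_eq h g1 g1']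
    have hone := one_le_HH hφz hφz'
    have hone' := one_le_HH hw1 hw1'
    have hcase : ((R : ℝ) ^ a ≤ sz T z ∧ (R : ℝ) ^ a ≤ sz T z') ∨
        a' / 2 * Real.log R ≤ D T z z' := by
      rcases hgood with ⟨hg, hg'⟩ | hg
      · left
        have hsq : (R : ℝ) ^ (2 * a) = (R : ℝ) ^ a * (R : ℝ) ^ a := by
          rw [← Real.rpow_add hRr0]
          congr 1
          ring
        have hRa1 : 1 ≤ (R : ℝ) ^ a := Real.one_le_rpow hRr ha.le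
        have hs : ∀ s : ℝ, (R : ℝ) ^ (2 * a) ≤ C3 * (s + 1) → (R : ℝ) ^ a ≤ s := by
          intro s hs
          rw [hsq] at hs
          by_contra hcon
          push Not at hcon
          have k1 : C3 * (s + 1) < C3 * ((R : ℝ) ^ a + 1) :=
            mul_lt_mul_of_pos_left (by linarith) (by linarith)
          have k2 : 2 * C3 * (R : ℝ) ^ a ≤ (R : ℝ) ^ a * (R : ℝ) ^ a :=
            mul_le_mul_of_nonneg_right hRa (by linarith)
          nlinarith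
        exact ⟨hs _ (hg.trans g3), hs _ (hg'.trans g3')⟩
      · right
        rw [hdd]
        have k1 : Real.log (HH w w') ≤ Real.log M + Real.log (4 * HH (φ (cf z)) (φ (cf z'))) := by
          rw [← Real.log_mul (by positivity) (by positivity)]
          apply Real.log_le_log (by positivity)
          nlinarith
        linarith
    have h1 := hpair R T hR0 hfit z g1 z' g1' hcase
    refine h1.trans ?_
    rw [hdd]
    have h2 := rpow_bound (c := c) (M := M) (x := 4 * HH (φ (cf z)) (φ (cf z'))) (l := l)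
      (n := K.1) (m := K'.1) hc (by positivity) hl0
      ((le_HH hw hw' hl0 hl).trans (hHH.trans (by nlinarith)))
    calc C * Real.exp (-c * Real.log (4 * HH (φ (cf z)) (φ (cf z')))) ≤ C * ((4 * M) ^ c *
          (((1 / 2 : ℝ) ^ c) ^ K.1 * ((1 / 2 : ℝ) ^ c) ^ K'.1 / (l ^ 2) ^ c)) := by gcongr
      _ = B := by rw [hB]; ring
  have hmono : pv T.V tr K K' ≤ Pr T.V (fun ω => ∃ z ∈ Z, ∃ z' ∈ Z', ∃ L ∈ Loops ω,
      Vis ω L z (sz T z) ∧ Vis ω L z' (sz T z')) := by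
    apply E.Pr_mono
    rintro ω hω ⟨L, hL, h1, h2⟩
    obtain ⟨z, hz, hv⟩ := hvis K w hw Z hZ3 ω hω L hL h1
    obtain ⟨z', hz', hv'⟩ := hvis K' w' hw' Z' hZ3' ω hω L hL h2
    exact ⟨z, hz, z', hz', L, hL, hv, hv'⟩
  refine hmono.trans ?_
  calc Pr T.V (fun ω => ∃ z ∈ Z, ∃ z' ∈ Z', ∃ L ∈ Loops ω,
        Vis ω L z (sz T z) ∧ Vis ω L z' (sz T z')) ≤ Z.card * (Z'.card * B) := by
        apply E.Pr_exists_le_card
        intro z hz
        apply E.Pr_exists_le_card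
        intro z' hz'
        exact hmain z hz z' hz'
    _ ≤ N0 * (N0 * B) := by
        have k1 : (Z.card : ℝ) ≤ N0 := by exact_mod_cast hZ1
        have k2 : (Z'.card : ℝ) ≤ N0 := by exact_mod_cast hZ1'
        gcongr
    _ = _ := by rw [hB]; ring

end Vale.Agent.P155.BDK
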